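import Vale.Agent.P167.H950.Q.Ent

/-!
# P167, general `q`, block Q-NSYM: **HIT**

`hit_q : 1 ≤ Q → RSW Q → HIT Q`. Filled arcs of both colours: a tube of width `m` down to height
`4 n`, a horizontal tube, the leg, the top of the arch, the other leg.
-/

namespace Vale.Agent.P167.H950.Q

open Finset Vale.Agent.P145.FB Vale.Agent.P153 Vale.Agent.P153.Topo Vale.Agent.P167
  Vale.Agent.P167.H632 Vale.Agent.P167.H871 Vale.Agent.P167.H704 Vale.Agent.P167.FK
  Vale.Agent.P167.FKA Vale.Agent.P167.H704.Q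
open Vale.Agent.P167.H318 (St Pt0 Cl0 FlatAt cnt opq st hdv_opq ls_opq rs_opq even_corner odd_corner
  col_ne hs_notF cnt_pos CoConn hit ex Lo TB)
open Relation

/-- the squares of the tube of colour `e` -/
noncomputable def TE (x l : ℤ) (e : Bool) : Finset Pt :=
  (rq (x - 4 * l) (x + 4 * l) 0 (8 * l)).filter fun v => v.1 < x + 4 * l ∧ v.2 < 8 * l ∧
    (5 * l ≤ v.2 ∨ v.1 < x - (if e then l else 0) ∨ x + (if e then 1 else l) ≤ v.1)

theorem mem_TE {x l : ℤ} {e : Bool} {v : Pt} : v ∈ TE x l e ↔ x - 4 * l ≤ v.1 ∧ v.1 < x + 4 * l ∧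
    0 ≤ v.2 ∧ v.2 < 8 * l ∧
      (5 * l ≤ v.2 ∨ v.1 < x - (if e then l else 0) ∨ x + (if e then 1 else l) ≤ v.1) := by
  rw [TE, Finset.mem_filter, mem_rq]
  omega

/-- left end of the vertical tube -/
def tv (e : Bool) (x q : ℤ) : ℤ := if e then x + 4 * q else x - 8 * q

/-- left end of the horizontal tube -/
def ha (e : Bool) (x l q : ℤ) : ℤ := if e then x + 3 * q else x - 3 * l

/-- right end of the horizontal tube -/
def hb (e : Bool) (x l q : ℤ) : ℤ := if e then x + 3 * l else x - 3 * q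

/-- the crossings -/
def BR (e : Bool) (x l n q : ℤ) : Set Cfg :=
  Vc e (tv e x q) (tv e x q + 4 * q) (4 * n) (2 * l) ∩
    (Hc e (ha e x l q) (hb e x l q) (2 * l - q) (2 * l) ∩
      (Vc e (lg e x l) (lg e x l + l) l (7 * l) ∩
        (Hc e (x - 3 * l) (x + 3 * l) (6 * l) (7 * l) ∩
          Vc e (lg (!e) x l) (lg (!e) x l + l) (3 * l) (7 * l))))

theorem inc_BR (e : Bool) (x l n q : ℤ) : IncC e (BR e x l n q) :=
  (inc_Vc _ _ _ _ _).inter ((inc_Hc _ _ _ _ _).inter ((inc_Vc _ _ _ _ _).inter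
    ((inc_Hc _ _ _ _ _).inter (inc_Vc _ _ _ _ _))))

theorem br_ge {Q : ℝ} (hQ : 1 ≤ Q) (h : RSW Q) (K : ℤ) : ∃ (c : ℝ) (s0 : ℤ), 0 < c ∧ c ≤ 1 ∧
    1 ≤ s0 ∧ ∀ (e : Bool) (x l n q : ℤ), s0 ≤ q → 8 * q ≤ n → 8 * n ≤ l → l ≤ 15 * K * q →
      c ≤ Pr Q (TE x l e) (cst (!e)) (BR e x l n q) := by
  obtain ⟨c, s0, hc, hc1, hs0, h⟩ := rs_fk hQ h ((45 * K).toNat + 6)
  refine ⟨c ^ 5, s0, by positivity, pow_le_one₀ hc.le hc1, hs0, fun e x l n q hq hqn hnl hlK => ?_⟩
  have g := good_cst (!e)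
  have hq1 : 1 ≤ q := hs0.trans hq
  have hK : 0 ≤ K := by
    by_contra hc
    have : K * q ≤ 0 := by nlinarith
    have h2 : 15 * K * q = 15 * (K * q) := by ring
    omega
  have hKn : (((45 * K).toNat + 6 : ℕ) : ℤ) = 45 * K + 6 := by
    push_cast
    rw [Int.toNat_of_nonneg (by omega)]
  have hKq : 0 ≤ K * q := by positivity
  have hlK' : l ≤ 15 * (K * q) := by
    have h2 : 15 * K * q = 15 * (K * q) := by ring
    omega
  have hle : ∀ e, lg e x l = x + 2 * l ∨ lg e x l = x - 3 * l := by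
    intro e
    cases e
    · exact Or.inr rfl
    · exact Or.inl rfl
  refine fkg5Q hQ g hc.le (inc_Vc _ _ _ _ _) (inc_Hc _ _ _ _ _) (inc_Vc _ _ _ _ _)
    (inc_Hc _ _ _ _ _) (inc_Vc _ _ _ _ _) ?_ ?_ ?_ ?_ ?_
  · refine (h e _ _ _ _ _ _ g (by omega) (by omega)).2 (by omega) ?_
      fun v a1 a2 a3 a4 a5 => absurd ?_ a5
    · rw [hKn]
      have h3 : (45 * K + 6) * (tv e x q + 4 * q - tv e x q) = 180 * (K * q) + 24 * q := by ring
      omega
    · rw [mem_TE]
      cases e <;> simp only [tv, Bool.false_eq_true, if_false, if_true] at a3 a4 ⊢ <;> omega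
  · refine (h e _ _ _ _ _ _ g ?_ (by omega)).1 (by omega) ?_
      fun v a1 a2 a3 a4 a5 => absurd ?_ a5
    · cases e <;> simp only [ha, hb, Bool.false_eq_true, if_false, if_true] <;> omega
    · rw [hKn]
      have h3 : (45 * K + 6) * (2 * l - (2 * l - q)) = 45 * (K * q) + 6 * q := by ring
      cases e <;> simp only [ha, hb, Bool.false_eq_true, if_false, if_true] <;> omega
    · rw [mem_TE]
      cases e <;> simp only [ha, hb, Bool.false_eq_true, if_false, if_true] at a1 a2 ⊢ <;> omega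
  · have hlg := hle e
    refine (h e _ _ _ _ _ _ g (by omega) (by omega)).2 (by omega) ?_
      fun v a1 a2 a3 a4 a5 => absurd ?_ a5
    · rw [hKn]
      have h3 : (45 * K + 6) * (lg e x l + l - lg e x l) = 45 * (K * l) + 6 * l := by ring
      have : 0 ≤ K * l := by
        have : 0 ≤ l := by omega
        positivity
      omega
    · rw [mem_TE]
      cases e <;> simp only [lg, Bool.false_eq_true, if_false, if_true] at a3 a4 ⊢ <;> omega
  · refine (h e _ _ _ _ _ _ g (by omega) (by omega)).1 (by omega) ?_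
      fun v a1 a2 a3 a4 a5 => absurd ?_ a5
    · rw [hKn]
      have h3 : (45 * K + 6) * (7 * l - 6 * l) = 45 * (K * l) + 6 * l := by ring
      have : 0 ≤ K * l := by
        have : 0 ≤ l := by omega
        positivity
      omega
    · rw [mem_TE]
      omega
  · refine (h e _ _ _ _ _ _ g (by omega) (by omega)).2 (by omega) ?_
      fun v a1 a2 a3 a4 a5 => absurd ?_ a5
    · rw [hKn]
      have h3 : (45 * K + 6) * (lg (!e) x l + l - lg (!e) x l) = 45 * (K * l) + 6 * l := by ring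
      have : 0 ≤ K * l := by
        have : 0 ≤ l := by omega
        positivity
      omega
    · rw [mem_TE]
      cases e <;> simp only [lg, Bool.false_eq_true, Bool.not_false, Bool.not_true, if_false,
        if_true] at a3 a4 ⊢ <;> omega

/-- the filled arc from the crossings -/
theorem arc_of_br {e : Bool} {x l n q : ℤ} (hq : 1 ≤ q) (hqn : 8 * q ≤ n) (hnl : 8 * n ≤ l)
    {ω : Cfg} (h : ω ∈ BR e x l n q) : ∃ a b : Pt, a.2 = 4 * n ∧ (a.1 + a.2) % 2 = pr e ∧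
      tv e x q ≤ a.1 ∧ a.1 ≤ tv e x q + 4 * q ∧ lg (!e) x l ≤ b.1 ∧ b.1 ≤ lg (!e) x l + l ∧
      b.2 = 3 * l ∧ PConn (cs e ω) (Rect (x - 4 * l) (x + 4 * l) (4 * n) (8 * l)) a b := by
  obtain ⟨⟨s, t, hs, ht, hp1, hst⟩, ⟨s1, t1, hs1, ht1, hp2, hst1⟩, ⟨s2, t2, hs2, ht2, hp3, hst2⟩,
    ⟨s3, t3, hs3, ht3, hp4, hst3⟩, ⟨s4, t4, hs4, ht4, hp5, hst4⟩⟩ := h
  have w1 : ha e x l q ≤ tv e x q ∧ tv e x q + 4 * q ≤ hb e x l q ∧ ha e x l q ≤ lg e x l ∧
      lg e x l + l ≤ hb e x l q ∧ x - 3 * l ≤ ha e x l q ∧ hb e x l q ≤ x + 3 * l ∧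
      x - 3 * l ≤ lg e x l ∧ lg e x l + l ≤ x + 3 * l ∧ x - 3 * l ≤ lg (!e) x l ∧
      lg (!e) x l + l ≤ x + 3 * l := by
    cases e <;> simp only [ha, hb, tv, lg, Bool.false_eq_true, Bool.not_false, Bool.not_true,
      if_false, if_true] <;> omega
  obtain ⟨v1, v2, v3, v4, v5, v6, v7, v8, v9, v10⟩ := w1
  obtain ⟨z, z1, z2⟩ := meet hst (by omega : s.2 ≤ 2 * l - q) (by omega : 2 * l ≤ t.2) hp1 hst1
    (by omega : s1.1 ≤ tv e x q) (by omega : tv e x q + 4 * q ≤ t1.1) hp2 (by omega) (by omega)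
  obtain ⟨z', z3, z4⟩ := meet hst2 (by omega : s2.2 ≤ 2 * l - q) (by omega : 2 * l ≤ t2.2) hp3 hst1
    (by omega : s1.1 ≤ lg e x l) (by omega : lg e x l + l ≤ t1.1) hp2 (by omega) (by omega)
  obtain ⟨z'', z5, z6⟩ := meet hst2 (by omega : s2.2 ≤ 6 * l) (by omega : 7 * l ≤ t2.2) hp3 hst3
    (by omega : s3.1 ≤ lg e x l) (by omega : lg e x l + l ≤ t3.1) hp4 (by omega) (by omega)
  obtain ⟨z''', z7, z8⟩ := meet hst4 (by omega : s4.2 ≤ 6 * l) (by omega : 7 * l ≤ t4.2) hp5 hst3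
    (by omega : s3.1 ≤ lg (!e) x l) (by omega : lg (!e) x l + l ≤ t3.1) hp4 (by omega) (by omega)
  have c : ∀ a b p q' : ℤ, x - 3 * l ≤ a → b ≤ x + 3 * l → 4 * n ≤ p → q' ≤ 7 * l →
      Rect a b p q' ⊆ Rect (x - 4 * l) (x + 4 * l) (4 * n) (8 * l) := by
    intro a b p q' k1 k2 k3 k4 r hr
    rw [mem_rect] at hr ⊢
    omega
  have c0 := c (tv e x q) (tv e x q + 4 * q) (4 * n) (2 * l) (by omega) (by omega) le_rfl (by omega)
  have c1 := c (ha e x l q) (hb e x l q) (2 * l - q) (2 * l) (by omega) (by omega) (by omega)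
    (by omega)
  have c2 := c (lg e x l) (lg e x l + l) l (7 * l) (by omega) (by omega) (by omega) (by omega)
  have c3 := c (x - 3 * l) (x + 3 * l) (6 * l) (7 * l) (by omega) (by omega) (by omega) (by omega)
  have c4 := c (lg (!e) x l) (lg (!e) x l + l) (3 * l) (7 * l) (by omega) (by omega) (by omega)
    (by omega)
  have hsR := hst.left_mem
  have hs4R := hst4.left_mem
  rw [mem_rect] at hsR hs4R
  refine ⟨s, s4, hs, hp1, hsR.1, hsR.2.1, hs4R.1, hs4R.2.1, hs4, ?_⟩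
  exact (z1.mono subset_rfl c0).trans (((z2.symm.trans z4).mono subset_rfl c1).trans
    ((z3.symm.trans z5).mono subset_rfl c2) |>.trans (((z6.symm.trans z8).mono subset_rfl c3).trans
      (z7.symm.mono subset_rfl c4)))

/-- **HIT** -/
theorem hit_q {Q : ℝ} (hQ : 1 ≤ Q) (h : RSW Q) : H318.UQ.HIT Q := by
  intro K
  have hQ0 : 0 < Q := by linarith
  obtain ⟨c, s0, hc, hc1, hs0, h⟩ := br_ge hQ h K
  refine ⟨c * c, 8 * s0 + 8, by positivity, fun S l x ρ n m hm hmn hnl hlK hlρ hC => ?_⟩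
  obtain ⟨q, hq⟩ : ∃ q, q = m / 8 := ⟨_, rfl⟩
  have q1 : s0 ≤ q := by omega
  have q2 : 8 * q ≤ m := by omega
  have q3 : m ≤ 15 * q := by omega
  have hK : 0 ≤ K := by
    by_contra hcon
    have : K * m ≤ 0 := by nlinarith
    omega
  have hlK' : l ≤ 15 * K * q := by nlinarith
  have hB : TB S x ρ (4 * l) (ρ + 1) x := hC.toTB
  have hg : Good S.z := hC.gq.good
  have hl : 1 ≤ l := by omega
  have hH : 8 * l ≤ ρ + 1 := by omega
  have hx1 : x - ρ ≤ x - 8 * l := by omega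
  have hx2 : x + 8 * l ≤ x + ρ := by omega
  have hx0 : (x, (-1 : ℤ)) ∉ S.D := hB.flat.not x (by omega) (by omega)
  obtain ⟨U, hU⟩ := H318.exists_pt0 (S := S) hB.toOk (show (1 : ℤ) ≤ 4 * l by omega) hB.tip_hdv hx0
  have hhp := tb_hp hB hl hx1 hx2 hU
  have hT : ∀ e, TOk S x (4 * l) (TE x l e) := by
    intro e v hv
    rw [mem_TE] at hv
    have hLo : v ∈ Lo x ρ (ρ + 1) := ⟨by omega, by omega, by omega, by omega⟩
    refine ⟨hB.flat'.mem _ hLo, hB.po _ hLo, ?_⟩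
    rintro ⟨c1, c2, c3⟩
    cases e <;> simp only [Bool.false_eq_true, if_false, if_true] at hv <;> omega
  -- the two events
  set C : Bool → Finset Pt := fun e => CU e S (TE x l e) U with hCdef
  set E : Bool → Set Cfg := fun e => {ω | fil e (TE x l e) (C e) ω ∈ BR e x l n q} with hE
  have hge : ∀ e (ω : Cfg), Good ω → (∀ v, v ∉ S.F → ω v = S.z v) → c ≤ Pr Q (C e) ω (E e) :=
    fun e ω hω hω' => (h e x l n q q1 (by omega) hnl hlK').trans
      (link hQ hU hB.toOk (by omega) hB.tip_hdv hhp (hT e) hω hω' (inc_BR e x l n q))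
  have i1 : Ind (C true) ((E false).indicator (1 : Cfg → ℝ)) :=
    Loc.ind (CU_disj hhp).symm fil_loc
  have s1 : c * 1 ≤ Ex Q S.F S.z (fun ω => 1 * (E false).indicator 1 ω) := by
    have := ex_ge hQ hg (CU_fresh (e := false) (S := S) (T := TE x l false) (u := U))
      (G := fun _ => (1 : ℝ)) (fun _ _ _ => rfl) (fun _ => zero_le_one) (hge false)
    rwa [Ex_const hQ0] at this
  have s2 : c * Ex Q S.F S.z ((E false).indicator 1) ≤
      Ex Q S.F S.z (fun ω => (E false).indicator 1 ω * (E true).indicator 1 ω) :=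
    ex_ge hQ hg (CU_fresh (e := true) (S := S) (T := TE x l true) (u := U)) i1
      (fun _ => ind_nonneg _ _) (hge true)
  simp only [one_mul, mul_one] at s1
  refine (mul_le_mul_of_nonneg_left s1 hc.le).trans (s2.trans (Ex_mono hQ0 fun Z _ => ?_))
  have hξ : ∀ v, v ∉ S.F → cf S.F S.z Z v = S.z v := fun v hv => cf_out hv
  set ξ := cf S.F S.z Z with hξdef
  by_cases h1 : ξ ∈ E false
  swap
  · rw [Set.indicator_of_notMem h1, zero_mul]
    exact ind_nonneg _ _
  by_cases h2 : ξ ∈ E true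
  swap
  · rw [Set.indicator_of_notMem h2, mul_zero]
    exact ind_nonneg _ _
  rw [Set.indicator_of_mem h1, Set.indicator_of_mem h2, Set.indicator_of_mem]
  · simp
  obtain ⟨a, b, a1, a2, a3, a4, b1, b2, b3, hab⟩ := arc_of_br (by omega) (by omega) hnl h2
  obtain ⟨a', b', a1', a2', a3', a4', b1', b2', b3', hab'⟩ := arc_of_br (by omega) (by omega) hnl h1
  simp only [tv, lg, Bool.false_eq_true, Bool.not_false, Bool.not_true, if_false, if_true] at *
  obtain ⟨⟨y, y1, y2, y3⟩, hcf⟩ := enter_fa hB hl hH hx1 hx2 (show 1 ≤ 4 * n by omega)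
    (by omega) hU hξ hT a1 a1' a2 a2' (by omega) (by omega) (by omega) (by omega) (by omega)
    (by omega) (by omega) (by omega) (by omega) (by omega) (by omega) (by omega) hab hab'
  refine ⟨⟨y, y3, ?_⟩, fun j hj hj' => ?_⟩
  · rw [abs_le]
    omega
  · obtain ⟨r1, r2, r3, r4⟩ := hcf j hj hj'
    exact ⟨by omega, by omega, by omega, by omega⟩

end Vale.Agent.P167.H950.Q
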