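import Vale.Agent.P167.H318.Q.Gate
import Vale.Agent.P167.H318.GT3

/-!
# P167, general `q`, block Q-NSYM: confinement by filled arcs

`confine`: filled arcs of both colours around the tip (the squares of the tube which are not on the
side of the bank of the colour are filled by the colour) confine the strand in the box until it comes
below height `h0`.
-/

namespace Vale.Agent.P167.H950.Q

open Finset Vale.Agent.P145.FB Vale.Agent.P153 Vale.Agent.P153.Topo Vale.Agent.P167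
  Vale.Agent.P167.H632 Vale.Agent.P167.H871 Vale.Agent.P167.H704 Vale.Agent.P167.FK
  Vale.Agent.P167.FKA Vale.Agent.P167.H704.Q
open Vale.Agent.P167.H318 (St Pt0 Cl0 FlatAt cnt opq st hdv_opq ls_opq rs_opq even_corner odd_corner
  col col_ne hs_notF cnt_pos CoConn dvg dvg_path dvg_col dvg_add sg_sq flat_of hit ex Lo TB)
open Relation

/-! ### steps of the strand -/

/-- one step: the bank of the other colour does not move -/
theorem bk_step {e : Bool} {ω : Cfg} {f : Ed} (h : ω (hdv f) = e) :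
    bk (!e) (nx ω f) = bk (!e) f ∧ PStep {hdv f} (bk e f) (bk e (nx ω f)) := by
  rcases step_cases ω f with ⟨h1, h2, h3⟩ | ⟨h1, h2, h3⟩
  · have he : e = true := by rw [← h, h1]
    subst he
    exact ⟨h2, h3⟩
  · have he : e = false := by rw [← h, h1]
    subst he
    exact ⟨h2, h3⟩

/-- the corners of colour `e` of a square of colour `e` -/
theorem two_cor {e : Bool} {ω : Cfg} {f : Ed} {s : Pt} (hb : ω (hdv f) = e) (hs : Cor (hdv f) s)
    (he : (s.1 + s.2) % 2 = pr e) : s = bk e f ∨ s = bk e (nx ω f) :=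
  diag_eq (bk_step hb).2 hs (by rw [he, bk_par])

theorem bk_or (V : Pt → ℤ) {d : ℤ} {f : Ed} (h : V (ls f) = V (rs f) + d) (e : Bool) :
    V (bk e f) = V (rs f) + (if e then d else 0) := by
  cases e
  · show V (rs f) = _
    simp
  · exact h

/-- constant values along the two banks -/
theorem chainV {V : Pt → ℤ} {d : ℤ} {f : Ed} {ξ : Cfg} {n : ℕ}
    (h : ∀ i ≤ n, V (ls (st f ξ i)) = V (rs (st f ξ i)) + d) :
    ∀ i ≤ n, ∀ e, V (bk e (st f ξ i)) = V (bk e f) := by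
  intro i
  induction i with
  | zero => exact fun _ _ => rfl
  | succ i ih =>
    intro hi e
    have h1 := ih (by omega)
    have h2 := h i (by omega)
    have h3 := h (i + 1) hi
    rw [H318.Bs.st_succ] at h3 ⊢
    have h0 := h 0 (Nat.zero_le _)
    rw [H318.Bs.st_zero] at h0
    have k1 := h1 true
    have k2 := h1 false
    simp only [bk, if_true, Bool.false_eq_true, if_false] at k1 k2
    cases e <;> simp only [bk, if_true, Bool.false_eq_true, if_false] <;>
      rcases step_cases ξ (st f ξ i) with ⟨-, h5, -⟩ | ⟨-, h5, -⟩ <;> simp only [h5] at h3 ⊢ <;>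
      omega

/-! ### the potential of a piece of strand prolonged by a column -/

/-- the box -/
def R0 (x l h0 : ℤ) : Set Pt :=
  {v | x - 4 * l ≤ v.1 ∧ v.1 < x + 4 * l ∧ h0 ≤ v.2 ∧ v.2 < 8 * l}

/-- the potential of a walk prolonged backwards by the column below its first square -/
theorem walk_col {D : Set Pt} (hD : Ex D) {f : Ed} {ξ : Cfg} {n : ℕ} {x y : ℤ} (hy : 0 ≤ y)
    (h0 : tlv f = (x, y)) (hn : hdv (st f ξ n) ∉ D) (hx : ((x, -1) : Pt) ∉ D) :
    ∃ V : Pt → ℤ, ∀ e, (hdv e ∈ D ∨ tlv e ∈ D) →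
      V (ls e) = V (rs e) + cnt f ξ n e - sg e * H318.col x (y + 1) e := by
  obtain ⟨V, hV⟩ := hD (fun e => sg e * cnt f ξ n e - H318.col x (y + 1) e) (by
    intro v hv
    have h1 := dvg_path f ξ n v
    have h2 := dvg_col (x := x) (h := y + 1) (by omega) v
    have n1 : v ≠ hdv (st f ξ n) := fun h => hn (by rw [← h]; exact hv)
    have n2 : v ≠ (x, -1) := fun h => hx (by rw [← h]; exact hv)
    rw [if_neg n1, h0] at h1
    rw [if_neg n2] at h2
    have e1 : y + 1 - 1 = y := by ring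
    rw [e1] at h2
    simp only [dvg] at h1 h2
    linarith)
  refine ⟨V, fun e he => ?_⟩
  rw [hV e he, mul_sub, ← mul_assoc, sg_sq, one_mul]
  ring

/-- along a row -/
theorem row_c {V : Pt → ℤ} {y a b : ℤ} (hab : a ≤ b)
    (h : ∀ s, a ≤ s → s < b → V (s, y) = V (s + 1, y)) : V (a, y) = V (b, y) := by
  obtain ⟨n, rfl⟩ : ∃ n : ℕ, b = a + n := ⟨(b - a).toNat, by omega⟩
  induction n with
  | zero => simp
  | succ n ih =>
    rw [ih (by omega) (fun s h1 h2 => h s h1 (by push_cast; omega)), h (a + n) (by omega)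
      (by push_cast; omega)]
    congr 2
    push_cast
    ring

/-- along a column -/
theorem col_c {V : Pt → ℤ} {x a b : ℤ} (hab : a ≤ b)
    (h : ∀ s, a ≤ s → s < b → V (x, s) = V (x, s + 1)) : V (x, a) = V (x, b) := by
  obtain ⟨n, rfl⟩ : ∃ n : ℕ, b = a + n := ⟨(b - a).toNat, by omega⟩
  induction n with
  | zero => simp
  | succ n ih =>
    rw [ih (by omega) (fun s h1 h2 => h s h1 (by push_cast; omega)), h (a + n) (by omega)
      (by push_cast; omega)]
    congr 2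
    push_cast
    ring

/-- the jump across a horizontal edge -/
theorem jump_inr {V : Pt → ℤ} {g : Ed → ℤ} (x y : ℤ)
    (h : V (ls (Sum.inr (x, y))) = V (rs (Sum.inr (x, y))) + sg (Sum.inr (x, y)) * g (Sum.inr (x, y))) :
    V (x, y + 1) = V (x + 1, y + 1) + g (Sum.inr (x, y)) := by
  rcases sq_inr (x, y) with h1 | h1 <;> rw [h1.2.2.1, h1.2.2.2.1, h1.2.2.2.2] at h <;>
    dsimp only at h <;> linarith

/-! ### confinement -/

/-- **filled arc**: the squares of the tube `T` which are not on the side of the bank of colour `e` are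
filled by the colour `e`; a path of colour `e` from height `h0` on the side of this bank to the low
zone on the other side -/
def FA (e : Bool) (S : St) (T : Finset Pt) (U : Pt → ℤ) (x l h0 : ℤ) (ξ : Cfg) : Prop :=
  ∃ a b : Pt, a.2 = h0 ∧ (a.1 + a.2) % 2 = pr e ∧
    (if e then x + 1 ≤ a.1 ∧ a.1 ≤ x + 4 * l else x - 4 * l + 1 ≤ a.1 ∧ a.1 ≤ x) ∧
    (if e then x - 4 * l + 1 ≤ b.1 ∧ b.1 ≤ x - 2 else x + 2 ≤ b.1 ∧ b.1 ≤ x + 4 * l - 1) ∧
    h0 ≤ b.2 ∧ b.2 ≤ 4 * l ∧
    PConn (cs e (fil e T (CU e S T U) ξ)) (Rect (x - 4 * l) (x + 4 * l) h0 (8 * l)) a b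

variable {S : St} {u w l H x h0 : ℤ} {U : Pt → ℤ} {ξ : Cfg}

theorem st_z (hξ : ∀ v, v ∉ S.F → ξ v = S.z v) : ∀ i ≤ S.m, st S.e0 ξ i = st S.e0 S.z i :=
  H318.Bs.st_congr fun _ hi => hξ _ fun h => (H318.Bs.hit_min hi).1 (Finset.mem_coe.2 h)

theorem west' (hB : TB S u w (4 * l) H x) (hl : 1 ≤ l) (hx1 : u - w ≤ x - 8 * l)
    (hx2 : x + 8 * l ≤ u + w) (hU : Pt0 S x (4 * l) U) {a : Pt} (h1 : x - 4 * l + 1 ≤ a.1)
    (h2 : a.1 ≤ x) (h3 : 0 ≤ a.2) (h4 : a.2 ≤ 4 * l) : U a = U (rs S.tip) := by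
  by_cases hx : a.1 ≤ x - 1
  · exact H318.west hB hl hx1 hx2 hU h1 hx h3 h4
  have hx' : a.1 = x := by omega
  by_cases hy : a.2 = 4 * l
  · rw [hB.rs_tip]
    congr 1
    exact Prod.ext hx' hy
  · have hLo : ((x - 1, a.2) : Pt) ∈ Lo u w (4 * l) :=
      ⟨by dsimp only; omega, by dsimp only; omega, h3, by dsimp only; omega⟩
    have hf := hU.flat hB.toOk (by omega) hB.tip_hdv (hB.flat.mem _ hLo)
      (fun h => (hs_notF h).1 (hB.fresh _ hLo)) (fun h => by have := h.1; dsimp only at this; omega)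
    have e1 := hf.1
    dsimp only at e1
    have e2 : a = (x - 1 + 1, a.2) := Prod.ext (by dsimp only; omega) rfl
    rw [e2, e1]
    exact H318.west hB hl hx1 hx2 hU (by dsimp only; omega) (by dsimp only; omega) h3 h4

theorem R0_sub (hB : TB S u w (4 * l) H x) (hH : 8 * l ≤ H)
    (hx1 : u - w ≤ x - 8 * l) (hx2 : x + 8 * l ≤ u + w) (hh0 : 0 ≤ h0) {v : Pt}
    (hv : v ∈ R0 x l h0) : v ∈ S.D := by
  obtain ⟨a1, a2, a3, a4⟩ := hv
  exact hB.flat'.mem _ ⟨by omega, by omega, by omega, by omega⟩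

/-- a square below height `h0` stops the strand -/
theorem low_stop (hB : TB S u w (4 * l) H x) (hx1 : u - w ≤ x - 8 * l)
    (hx2 : x + 8 * l ≤ u + w) (hh0 : 0 ≤ h0) {v : Pt} (h1 : x - 4 * l ≤ v.1) (h2 : v.1 ≤ x + 4 * l)
    (h3 : v.2 = h0 - 1) : v ∈ Lo u w h0 ∨ v ∉ S.D := by
  by_cases h : h0 = 0
  · right
    have e1 : v = (v.1, -1) := Prod.ext rfl (by rw [h3, h]; rfl)
    rw [e1]
    exact hB.flat.not _ (by omega) (by omega)
  · left
    exact ⟨by omega, by omega, by omega, by omega⟩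

theorem col_mono {x h h' : ℤ} (hh : h ≤ h') {e : Ed} (he : H318.col x h' e = 0) : H318.col x h e = 0 := by
  rcases e with v | v
  · rfl
  · simp only [H318.col] at he ⊢
    split_ifs at he with h1
    rw [if_neg]
    rintro ⟨a1, a2, a3⟩
    exact h1 ⟨a1, a2, by omega⟩

/-- the piece of the strand after its last passage through the column below the tip, until it leaves
the box -/
structure Pce (S : St) (u w x l h0 : ℤ) (U : Pt → ℤ) (ξ : Cfg) (f : Ed) (n : ℕ) (y0 : ℤ)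
    (e : Bool) : Prop where
  tl : tlv f = (x, y0)
  lo : h0 ≤ y0
  hi : y0 ≤ 4 * l - 1
  cl : ∀ i ≤ n, H318.col x (4 * l) (st f ξ i) = 0
  mem : ∀ i ≤ n, tlv (st f ξ i) ∈ R0 x l h0
  exit : hdv (st f ξ n) ∉ R0 x l h0
  inj : ∀ i k, i < k → k ≤ n → st f ξ i ≠ st f ξ k
  stop : ∀ i ≤ n, ¬ (hdv (st f ξ i) ∈ Lo u w h0 ∨ hdv (st f ξ i) ∉ S.D)
  val : ∀ i ≤ n, ∀ e', U (bk e' (st f ξ i)) = U (bk e S.tip)

theorem hht (e : Ed) : (hdv e).2 ≤ (tlv e).2 + 1 ∧ (tlv e).2 ≤ (hdv e).2 + 1 := by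
  rcases e with v | v
  · rcases sq_inl v with h | h <;> rw [h.1, h.2.1] <;> dsimp only <;> omega
  · rcases sq_inr v with h | h <;> rw [h.1, h.2.1] <;> dsimp only <;> omega

theorem hneU (h : U (ls S.tip) = U (rs S.tip) + 1) (e' : Bool) :
    U (bk e' S.tip) ≠ U (bk (!e') S.tip) := by
  cases e'
  · show U (rs S.tip) ≠ U (ls S.tip)
    omega
  · show U (ls S.tip) ≠ U (rs S.tip)
    omega

/-- the values at the edges of the column -/
theorem col_val (hB : TB S u w (4 * l) H x) (hl : 1 ≤ l) (hx1 : u - w ≤ x - 8 * l)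
    (hx2 : x + 8 * l ≤ u + w) (hU : Pt0 S x (4 * l) U) {g : Ed} (h : H318.col x (4 * l) g ≠ 0) :
    (U (ls g) = U (ls S.tip) ∧ U (rs g) = U (rs S.tip)) ∨
      (U (ls g) = U (rs S.tip) ∧ U (rs g) = U (ls S.tip)) := by
  rcases g with v | ⟨v1, v2⟩
  · exact absurd rfl h
  · simp only [H318.col] at h
    split_ifs at h with h1
    · obtain ⟨b1, b2, b3⟩ := h1
      subst b1
      have c1 : U (v1, v2 + 1) = U (rs S.tip) := west' hB hl hx1 hx2 hU
        (by dsimp only; omega) (by dsimp only; omega) (by dsimp only; omega) (by dsimp only; omega)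
      have c2 : U (v1 + 1, v2 + 1) = U (ls S.tip) := H318.east hB hl hx1 hx2 hU
        (by dsimp only; omega) (by dsimp only; omega) (by dsimp only; omega) (by dsimp only; omega)
      rcases sq_inr (v1, v2) with h2 | h2 <;> rw [h2.2.2.2.1, h2.2.2.2.2] <;> dsimp only
      · exact Or.inl ⟨c2, c1⟩
      · exact Or.inr ⟨c1, c2⟩
    · exact absurd rfl h

theorem exists_pce (hB : TB S u w (4 * l) H x) (hl : 1 ≤ l) (hH : 8 * l ≤ H)
    (hx1 : u - w ≤ x - 8 * l) (hx2 : x + 8 * l ≤ u + w) (hh0 : 0 ≤ h0) (hh : h0 ≤ 4 * l - 1)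
    (hU : Pt0 S x (4 * l) U) (hξ : ∀ v, v ∉ S.F → ξ v = S.z v)
    (hcon : ¬ ∀ j, S.m ≤ j → j < hit S.D S.e0 (Lo u w h0) ξ → hdv (st S.e0 ξ j) ∈ R0 x l h0) :
    ∃ (f : Ed) (n : ℕ) (y0 : ℤ) (e : Bool), Pce S u w x l h0 U ξ f n y0 e := by
  classical
  push Not at hcon
  obtain ⟨j, hj1, hj2, hj3⟩ := hcon
  set N := hit S.D S.e0 (Lo u w h0) ξ with hN
  have hS := hB.toOk
  have hp := tb_hp hB hl hx1 hx2 hU
  have htip : st S.e0 ξ S.m = S.tip := st_z hξ S.m le_rfl
  have htipv : hdv (st S.e0 ξ S.m) = (x, 4 * l - 1) := by rw [htip]; exact hB.tip_hdv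
  have htipR : hdv (st S.e0 ξ S.m) ∈ R0 x l h0 := by
    rw [htipv]
    exact ⟨by dsimp only; omega, by dsimp only; omega, by dsimp only; omega, by dsimp only; omega⟩
  have hDlt : ∀ i < N, hdv (st S.e0 ξ i) ∈ S.D := fun i hi => (H318.Bs.hit_min hi).2
  -- the first exit of the box
  have hex : ∃ j, S.m ≤ j ∧ hdv (st S.e0 ξ j) ∉ R0 x l h0 := ⟨j, hj1, hj3⟩
  obtain ⟨j1, ⟨m1, x1⟩, hj1N, hlt⟩ : ∃ j1, (S.m ≤ j1 ∧ hdv (st S.e0 ξ j1) ∉ R0 x l h0) ∧ j1 < N ∧
      ∀ i, S.m ≤ i → i < j1 → hdv (st S.e0 ξ i) ∈ R0 x l h0 := by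
    refine ⟨Nat.find hex, Nat.find_spec hex, (Nat.find_min' hex ⟨hj1, hj3⟩).trans_lt hj2,
      fun i hi hi' => ?_⟩
    by_contra hc
    exact Nat.find_min hex hi' ⟨hi, hc⟩
  have hm1 : S.m < j1 := by
    rcases lt_or_eq_of_le m1 with h | h
    · exact h
    · rw [← h] at x1
      exact absurd htipR x1
  -- the last time on the column
  obtain ⟨j0, a1, a2, a3, a4⟩ : ∃ j0, S.m ≤ j0 ∧ j0 ≤ j1 ∧
      (j0 = S.m ∨ H318.col x (4 * l) (st S.e0 ξ j0) ≠ 0) ∧
      ∀ i, j0 < i → i ≤ j1 → H318.col x (4 * l) (st S.e0 ξ i) = 0 := by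
    have hm2 : (S.m ≤ S.m ∧ (S.m = S.m ∨ H318.col x (4 * l) (st S.e0 ξ S.m) ≠ 0)) :=
      ⟨le_rfl, Or.inl rfl⟩
    have h1 := Nat.findGreatest_spec (P := fun i => S.m ≤ i ∧ (i = S.m ∨
      H318.col x (4 * l) (st S.e0 ξ i) ≠ 0)) (m := S.m) m1 hm2
    refine ⟨_, h1.1, Nat.findGreatest_le _, h1.2, fun i hi hi' => ?_⟩
    by_contra hc
    exact Nat.findGreatest_is_greatest hi hi' ⟨by omega, Or.inr hc⟩
  have hcol2 : ∀ i, H318.col x (4 * l) (st S.e0 ξ i) ≠ 0 → (hdv (st S.e0 ξ i)).1 = x ∧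
      -1 ≤ (hdv (st S.e0 ξ i)).2 ∧ (hdv (st S.e0 ξ i)).2 ≤ 4 * l - 1 :=
    fun i hi => col_ne hi (Or.inl rfl)
  have htl : ∀ i, S.m < i → i ≤ j1 → tlv (st S.e0 ξ i) ∈ R0 x l h0 := by
    intro i hi hi'
    obtain ⟨i', rfl⟩ : ∃ i', i = i' + 1 := ⟨i - 1, by omega⟩
    rw [H318.Bs.tlv_st]
    exact hlt i' (by omega) (by omega)
  have hj01 : j0 < j1 := by
    refine lt_of_le_of_ne a2 fun h => ?_
    subst h
    have h1 := hcol2 j0 (a3.resolve_left (by omega))
    have h2 := htl j0 hm1 le_rfl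
    have h3 : (hdv (st S.e0 ξ j0)).2 = h0 - 1 := by
      have h4 := (hht (st S.e0 ξ j0)).2
      have h5 : h0 ≤ (tlv (st S.e0 ξ j0)).2 := h2.2.2.1
      have h6 : ¬ h0 ≤ (hdv (st S.e0 ξ j0)).2 := fun h => x1 ⟨by omega, by omega, h, by omega⟩
      omega
    have h4 := low_stop hB hx1 hx2 hh0 (v := hdv (st S.e0 ξ j0)) (by omega) (by omega) h3
    have h5 := H318.Bs.hit_le h4
    omega
  obtain ⟨y0, hy0⟩ : ∃ y0, hdv (st S.e0 ξ j0) = (x, y0) := by
    rcases a3 with h | h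
    · exact ⟨4 * l - 1, by rw [h]; exact htipv⟩
    · exact ⟨(hdv (st S.e0 ξ j0)).2, Prod.ext (hcol2 j0 h).1 rfl⟩
  have hy0R : ((x, y0) : Pt) ∈ R0 x l h0 := by rw [← hy0]; exact hlt j0 a1 hj01
  have hy0l : y0 ≤ 4 * l - 1 := by
    rcases a3 with h | h
    · rw [h, htipv, Prod.mk.injEq] at hy0
      omega
    · have := (hcol2 j0 h).2.2
      rw [hy0] at this
      exact this
  -- the last piece
  set f := st S.e0 ξ (j0 + 1) with hf
  obtain ⟨n, hn⟩ : ∃ n, n = j1 - (j0 + 1) := ⟨_, rfl⟩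
  have hfi : ∀ i, st f ξ i = st S.e0 ξ (j0 + 1 + i) := fun i => by rw [hf, ← H318.Bs.st_add]
  have hcolf : ∀ i ≤ n, H318.col x (4 * l) (st f ξ i) = 0 := fun i hi => by
    rw [hfi]; exact a4 _ (by omega) (by omega)
  have htlf : ∀ i ≤ n, tlv (st f ξ i) ∈ R0 x l h0 := fun i hi => by
    rw [hfi]; exact htl _ (by omega) (by omega)
  have htf : tlv f = (x, y0) := by rw [hf, H318.Bs.tlv_st, hy0]
  have hinj : ∀ i k, i < k → k ≤ j1 → st S.e0 ξ i ≠ st S.e0 ξ k := fun i k hik hk =>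
    H318.Bs.st_inj hS.st hik fun k' hk' => hDlt k' (by omega)
  -- values of `U`
  have hU0 : ∀ i ≤ n, U (ls (st f ξ i)) = U (rs (st f ξ i)) + 0 := by
    intro i hi
    rw [hU (st f ξ i) (Or.inr (R0_sub hB hH hx1 hx2 hh0 (htlf i hi))), hcolf i hi]
    have hc0 : cnt S.e0 S.z S.m (st f ξ i) = 0 := by
      by_contra hne
      obtain ⟨k, hk, hk'⟩ := cnt_pos hne
      rw [← st_z hξ k hk, hfi] at hk'
      exact hinj k (j0 + 1 + i) (by omega) (by omega) hk'
    rw [hc0]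
    ring
  have hUc := chainV hU0
  obtain ⟨e, he⟩ : ∃ e, ∀ i ≤ n, ∀ e', U (bk e' (st f ξ i)) = U (bk e S.tip) := by
    have h00 := hU0 0 (Nat.zero_le _)
    rw [H318.Bs.st_zero] at h00
    have h1 : (U (ls (st S.e0 ξ j0)) = U (ls S.tip) ∧ U (rs (st S.e0 ξ j0)) = U (rs S.tip)) ∨
        (U (ls (st S.e0 ξ j0)) = U (rs S.tip) ∧ U (rs (st S.e0 ξ j0)) = U (ls S.tip)) := by
      rcases a3 with h | h
      · rw [h, htip]
        exact Or.inl ⟨rfl, rfl⟩
      · exact col_val hB hl hx1 hx2 hU h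
    have h2 : U (ls f) = U (ls (st S.e0 ξ j0)) ∨ U (rs f) = U (rs (st S.e0 ξ j0)) := by
      rw [hf, H318.Bs.st_succ]
      rcases step_cases ξ (st S.e0 ξ j0) with ⟨-, h5, -⟩ | ⟨-, h5, -⟩
      · exact Or.inr (by rw [h5])
      · exact Or.inl (by rw [h5])
    have h3 : U (ls f) = U (ls S.tip) ∨ U (ls f) = U (rs S.tip) := by omega
    rcases h3 with h3 | h3
    · refine ⟨true, fun i hi e' => ?_⟩
      rw [hUc i hi e']
      cases e'
      · show U (rs f) = U (ls S.tip)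
        omega
      · exact h3
    · refine ⟨false, fun i hi e' => ?_⟩
      rw [hUc i hi e']
      cases e'
      · show U (rs f) = U (rs S.tip)
        omega
      · exact h3
  refine ⟨f, n, y0, e, htf, hy0R.2.2.1, hy0l, hcolf, htlf, ?_, ?_, ?_, he⟩
  · rw [hfi, show j0 + 1 + n = j1 by omega]
    exact x1
  · intro i k hik hk
    rw [hfi, hfi]
    exact hinj _ _ (by omega) (by omega)
  · intro i hi h
    rw [hfi] at h
    have := H318.Bs.hit_le h
    omega

section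

variable {f : Ed} {n : ℕ} {y0 : ℤ} {e : Bool}

/-- the potential of the piece prolonged by the column -/
def PotV (x l h0 : ℤ) (ξ : Cfg) (f : Ed) (n : ℕ) (y0 : ℤ) (V : Pt → ℤ) : Prop :=
  ∀ e', (hdv e' ∈ R0 x l h0 ∨ tlv e' ∈ R0 x l h0) →
    V (ls e') = V (rs e') + cnt f ξ n e' - sg e' * H318.col x (y0 + 1) e'

theorem Pce.pot (P : Pce S u w x l h0 U ξ f n y0 e) (hh0 : 0 ≤ h0) :
    ∃ V, PotV x l h0 ξ f n y0 V :=
  walk_col (D := R0 x l h0) (ex_rect (x - 4 * l) (x + 4 * l) h0 (8 * l))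
    (by have := P.lo; omega) P.tl P.exit fun h => by
      have := h.2.2.1
      dsimp only at this
      omega

theorem Pce.chain (P : Pce S u w x l h0 U ξ f n y0 e) {V : Pt → ℤ}
    (hV : PotV x l h0 ξ f n y0 V) : ∀ i ≤ n, ∀ e', V (bk e' (st f ξ i)) = V (bk e' f) := by
  refine chainV (d := 1) fun i hi => ?_
  have hy := P.hi
  rw [hV _ (Or.inr (P.mem i hi)), col_mono (by omega) (P.cl i hi)]
  have hc1 : cnt f ξ n (st f ξ i) = 1 := by
    rw [cnt, Finset.sum_eq_single i]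
    · rw [if_pos rfl]
    · intro k hk hki
      rw [Finset.mem_range] at hk
      refine if_neg fun h => ?_
      rcases lt_or_gt_of_ne hki with h1 | h1
      · exact P.inj _ _ h1 hi h
      · exact P.inj _ _ h1 (by omega) h.symm
    · intro hi'
      exact absurd (Finset.mem_range.2 (by omega)) hi'
  rw [hc1]
  ring

theorem Pce.lt (P : Pce S u w x l h0 U ξ f n y0 e) {i : ℕ} (hi : i ≤ n)
    (h : hdv (st f ξ i) ∈ R0 x l h0) : i < n := by
  rcases lt_or_eq_of_le hi with h1 | h1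
  · exact h1
  · rw [h1] at h
    exact absurd h P.exit

/-- the potential is constant around the squares which the piece does not visit -/
theorem Pce.flat (P : Pce S u w x l h0 U ξ f n y0 e) (hh0 : 0 ≤ h0) {V : Pt → ℤ}
    (hV : PotV x l h0 ξ f n y0 V) {v : Pt} (hv : v ∈ R0 x l h0) (hcl : ¬ Cl0 x (4 * l) v)
    (hno : ∀ i < n, hdv (st f ξ i) ≠ v) : FlatAt V v := by
  refine flat_of fun e' he' => ?_
  have hy := P.hi
  have hy' := P.lo
  have hR : hdv e' ∈ R0 x l h0 ∨ tlv e' ∈ R0 x l h0 := by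
    rcases he' with h | h
    · left; rw [h]; exact hv
    · right; rw [h]; exact hv
  rw [hV e' hR]
  have h1 : H318.col x (4 * l) e' = 0 := by
    by_contra hc
    exact hcl (col_ne hc he')
  have h2 : cnt f ξ n e' = 0 := by
    by_contra hc
    obtain ⟨i, hi, hi'⟩ := cnt_pos hc
    rcases he' with h | h
    · rw [← hi'] at h
      exact hno i (P.lt hi (by rw [h]; exact hv)) h
    · rcases Nat.eq_zero_or_pos i with h3 | h3
      · subst h3
        rw [H318.Bs.st_zero] at hi'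
        rw [← hi', P.tl] at h
        apply hcl
        rw [← h]
        exact ⟨rfl, by dsimp only; omega, hy⟩
      · obtain ⟨i', rfl⟩ : ∃ i', i = i' + 1 := ⟨i - 1, by omega⟩
        rw [← hi', H318.Bs.tlv_st] at h
        exact hno i' (by omega) h
  rw [h2, col_mono (by omega) h1]
  ring

/-- the row at height `h0` -/
theorem Pce.row (P : Pce S u w x l h0 U ξ f n y0 e) (hB : TB S u w (4 * l) H x)
    (hx1 : u - w ≤ x - 8 * l) (hx2 : x + 8 * l ≤ u + w) (hh0 : 0 ≤ h0) (hh : h0 ≤ 4 * l - 1)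
    {V : Pt → ℤ} (hV : PotV x l h0 ξ f n y0 V) {s : ℤ} (hs1 : x - 4 * l ≤ s) (hs2 : s < x + 4 * l) :
    V (s, h0) = V (s + 1, h0) + (if s = x then 1 else 0) := by
  have hy' := P.lo
  have hsR : ((s, h0) : Pt) ∈ R0 x l h0 := ⟨hs1, hs2, le_rfl, by dsimp only; omega⟩
  have e1 : h0 - 1 + 1 = h0 := by ring
  have hor : hdv (Sum.inr (s, h0 - 1)) ∈ R0 x l h0 ∨ tlv (Sum.inr (s, h0 - 1)) ∈ R0 x l h0 := by
    rcases sq_inr (s, h0 - 1) with h | h
    · right; rw [h.2.1]; dsimp only; rw [e1]; exact hsR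
    · left; rw [h.1]; dsimp only; rw [e1]; exact hsR
  have h1 := hV _ hor
  have h2 : cnt f ξ n (Sum.inr (s, h0 - 1)) = 0 := by
    by_contra hc
    obtain ⟨i, hi, hi'⟩ := cnt_pos hc
    have h3 := P.mem i hi
    rw [hi'] at h3
    rcases sq_inr (s, h0 - 1) with h | h
    · have h4 : hdv (st f ξ i) = (s, h0 - 1) := by rw [hi', h.1]
      exact P.stop i hi (low_stop hB hx1 hx2 hh0 (by rw [h4]; exact hs1)
        (by rw [h4]; dsimp only; omega) (by rw [h4]))
    · rw [h.2.1] at h3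
      have := h3.2.2.1
      dsimp only at this
      omega
  rw [h2] at h1
  have h3 := jump_inr (V := V) (g := fun e' => - H318.col x (y0 + 1) e') s (h0 - 1) (by
    rw [h1]; ring)
  rw [e1] at h3
  rw [h3]
  congr 1
  simp only [H318.col]
  split_ifs <;> omega

/-- a square of the filled arc which is visited by the piece has the colour of the arc -/
theorem Pce.colour (P : Pce S u w x l h0 U ξ f n y0 e) (hB : TB S u w (4 * l) H x) (hl : 1 ≤ l)
    (hx1 : u - w ≤ x - 8 * l) (hx2 : x + 8 * l ≤ u + w) (hU : Pt0 S x (4 * l) U)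
    (hξ : ∀ v, v ∉ S.F → ξ v = S.z v) {T : Finset Pt} (hT : TOk S x (4 * l) T) {v : Pt}
    (hvT : v ∈ T) (hv : fil e T (CU e S T U) ξ v = e) {i : ℕ} (hi : i < n)
    (hiv : hdv (st f ξ i) = v) : ξ v = e := by
  have hp := tb_hp hB hl hx1 hx2 hU
  obtain ⟨t1, t2, t3⟩ := hT v hvT
  by_contra hc
  have hc1 : ξ v = !e := by
    cases e
    · rw [Bool.not_eq_false] at hc; exact hc
    · rw [Bool.not_eq_true] at hc; exact hc
  have hnC : v ∉ CU e S T U := by
    intro h
    rw [fil_in h] at hv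
    exact hc hv
  have hcr := corners (st f ξ i)
  rw [hiv] at hcr
  rcases t2 with hF | hH'
  · have hH : v ∉ S.Hs := fun h => (hs_notF h).1 hF
    have hfl := hU.flat hB.toOk (by omega) hB.tip_hdv t1 hH t3
    apply hnC
    refine mem_CU.2 ⟨hvT, hF, ?_⟩
    rw [← P.val i hi.le true, ← flat_cor hfl (s := bk true (st f ξ i)) hcr.1]
  · obtain ⟨k, hk, hkv⟩ := hH'
    have hzv : S.z (hdv (st S.e0 S.z k)) = !e := by
      rw [hkv, ← hξ v (hs_notF ⟨k, hk, hkv⟩).1, hc1]
    have hcor' : Cor (hdv (st S.e0 S.z k)) (bk (!e) (st f ξ i)) := by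
      rw [hkv]
      cases e
      · exact hcr.1
      · exact hcr.2
    have hchn := Pt0.chain hp
    have hchn' : ∀ i ≤ S.m, U (bk (!e) (st S.e0 S.z i)) = U (bk (!e) S.tip) := by
      intro i hi
      cases e
      · exact (hchn i hi).1
      · exact (hchn i hi).2
    have h9 : U (bk (!e) (st f ξ i)) = U (bk (!e) S.tip) := by
      rcases two_cor hzv hcor' (bk_par _ _) with h | h
      · rw [h]; exact hchn' k hk.le
      · rw [h, ← H318.Bs.st_succ]; exact hchn' (k + 1) hk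
    rw [P.val i hi.le] at h9
    exact hneU (hp S.m le_rfl) e h9

/-- the potential is constant along the filled arc -/
theorem Pce.arc (P : Pce S u w x l h0 U ξ f n y0 e) (hB : TB S u w (4 * l) H x) (hl : 1 ≤ l)
    (hx1 : u - w ≤ x - 8 * l) (hx2 : x + 8 * l ≤ u + w) (hh0 : 0 ≤ h0) (hU : Pt0 S x (4 * l) U)
    (hξ : ∀ v, v ∉ S.F → ξ v = S.z v) {T : Finset Pt} (hT : TOk S x (4 * l) T) {V : Pt → ℤ}
    (hV : PotV x l h0 ξ f n y0 V) {a b : Pt} (ap : (a.1 + a.2) % 2 = pr e)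
    (hab : PConn (cs e (fil e T (CU e S T U) ξ)) (Rect (x - 4 * l) (x + 4 * l) h0 (8 * l)) a b) :
    V a = V b := by
  obtain ⟨g1, g2⟩ := hab
  have key : b ∈ Rect (x - 4 * l) (x + 4 * l) h0 (8 * l) ∧ (b.1 + b.2) % 2 = pr e ∧ V a = V b := by
    induction g2 with
    | refl => exact ⟨g1, ap, rfl⟩
    | @tail s s' _ hss ih =>
      obtain ⟨i1, i2, i3⟩ := ih
      obtain ⟨v, hv, hst, hvs⟩ := H318.pstep_sq hss.1
      have hs'R := hss.2
      have hvR : v ∈ R0 x l h0 := by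
        rw [mem_rect] at i1 hs'R
        obtain ⟨k1, k2, -⟩ := hst
        rw [hvs]
        refine ⟨?_, ?_, ?_, ?_⟩ <;> dsimp only <;> omega
      have hpar : (s'.1 + s'.2) % 2 = pr e := by
        have h4 := hst.1
        have h5 := hst.2.1
        omega
      refine ⟨hs'R, hpar, i3.trans ?_⟩
      have hcor := cor_of_step hst
      rw [← hvs] at hcor
      have hv' : fil e T (CU e S T U) ξ v = e := hv
      have hvT : v ∈ T := by
        by_contra hc
        have hc' : v ∉ CU e S T U := fun h => hc (CU_sub h)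
        simp only [fil, hc, hc', if_false] at hv'
        cases e <;> simp at hv'
      by_cases hvis : ∃ i < n, hdv (st f ξ i) = v
      · obtain ⟨i, hi, hiv⟩ := hvis
        have hξv := P.colour hB hl hx1 hx2 hU hξ hT hvT hv' hi hiv
        have hb : ξ (hdv (st f ξ i)) = e := by rw [hiv, hξv]
        have hVc := P.chain hV
        have key : ∀ r : Pt, Cor v r → (r.1 + r.2) % 2 = pr e → V r = V (bk e f) := by
          intro r hr hr'
          rcases two_cor hb (by rw [hiv]; exact hr) hr' with h | h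
          · rw [h]; exact hVc i hi.le e
          · rw [h, ← H318.Bs.st_succ]; exact hVc (i + 1) hi e
        rw [key s hcor.1 i2, key s' hcor.2 hpar]
      · push Not at hvis
        exact (P.flat hh0 hV hvR (hT v hvT).2.2 hvis).step hst
  exact key.2.2

end

/-- **Confinement.** -/
theorem confine (hB : TB S u w (4 * l) H x) (hl : 1 ≤ l) (hH : 8 * l ≤ H)
    (hx1 : u - w ≤ x - 8 * l) (hx2 : x + 8 * l ≤ u + w) (hh0 : 0 ≤ h0) (hh : h0 ≤ 4 * l - 1)
    (hU : Pt0 S x (4 * l) U) (hξ : ∀ v, v ∉ S.F → ξ v = S.z v) {T : Bool → Finset Pt}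
    (hT : ∀ e, TOk S x (4 * l) (T e)) (hFA : ∀ e, FA e S (T e) U x l h0 ξ) :
    ∀ j, S.m ≤ j → j < hit S.D S.e0 (Lo u w h0) ξ → hdv (st S.e0 ξ j) ∈ R0 x l h0 := by
  by_contra hcon
  obtain ⟨f, n, y0, e, P⟩ := exists_pce hB hl hH hx1 hx2 hh0 hh hU hξ hcon
  obtain ⟨V, hV⟩ := P.pot hh0
  have hp := tb_hp hB hl hx1 hx2 hU
  have hne := hneU (hp S.m le_rfl)
  have hrow := fun s (h1 : x - 4 * l ≤ s) (h2 : s < x + 4 * l) =>
    P.row hB hx1 hx2 hh0 hh hV h1 h2
  have hleft : ∀ s, x - 4 * l ≤ s → s ≤ x → V (s, h0) = V (x, h0) := by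
    intro s h1 h2
    refine row_c h2 fun s' h3 h4 => ?_
    rw [hrow s' (by omega) (by omega), if_neg (by omega), add_zero]
  have hright : ∀ s, x + 1 ≤ s → s ≤ x + 4 * l → V (s, h0) = V (x + 1, h0) := by
    intro s h1 h2
    refine (row_c h1 fun s' h3 h4 => ?_).symm
    rw [hrow s' (by omega) (by omega), if_neg (by omega), add_zero]
  have hmid : V (x, h0) = V (x + 1, h0) + 1 := by
    rw [hrow x (by omega) (by omega), if_pos rfl]
  obtain ⟨a, b, ah, ap, aside, bside, b1, b2, hab⟩ := hFA e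
  have hVab := P.arc hB hl hx1 hx2 hh0 hU hξ (hT e) hV ap hab
  have hVb : V b = V (b.1, h0) := by
    refine (col_c (V := V) (x := b.1) b1 fun k hk1 hk2 => ?_).symm
    have hvR : ((b.1, k) : Pt) ∈ R0 x l h0 := by
      refine ⟨?_, ?_, hk1, by dsimp only; omega⟩ <;> dsimp only <;>
        cases e <;> simp only [Bool.false_eq_true, if_false, if_true] at bside <;> omega
    have hcl : ¬ Cl0 x (4 * l) (b.1, k) := by
      rintro ⟨c1, -, -⟩
      dsimp only at c1
      cases e <;> simp only [Bool.false_eq_true, if_false, if_true] at bside <;> omega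
    refine (P.flat hh0 hV hvR hcl fun i hi hiv => ?_).2.1.symm
    have hcr := (corners (st f ξ i)).1
    rw [hiv] at hcr
    dsimp only at hcr
    have h1 : U (ls (st f ξ i)) = U (bk e S.tip) := P.val i hi.le true
    cases e
    · simp only [Bool.false_eq_true, if_false] at bside
      rw [H318.east hB hl hx1 hx2 hU (by omega) (by omega) (by omega) (by omega)] at h1
      exact hne true h1
    · simp only [if_true] at bside
      rw [H318.west hB hl hx1 hx2 hU (by omega) (by omega) (by omega) (by omega)] at h1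
      exact hne false h1
  have ha : a = (a.1, h0) := Prod.ext rfl ah
  rw [hVb, ha] at hVab
  cases e
  · simp only [Bool.false_eq_true, if_false] at aside bside
    rw [hleft a.1 (by omega) aside.2, hright b.1 (by omega) (by omega)] at hVab
    omega
  · simp only [if_true] at aside bside
    rw [hleft b.1 (by omega) (by omega), hright a.1 aside.1 aside.2] at hVab
    omega

end Vale.Agent.P167.H950.Q
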