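import Vale.Agent.P167.H950.Q.Conf
import Vale.Agent.P167.H318.GT

/-!
# P167, general `q`, block Q-NSYM: the entrance below height `h0`

`enter`: an open path from the left bank and a dual path from the right bank to the row at height `h0`
fix the edge by which the strand first comes below height `h0`.
-/

namespace Vale.Agent.P167.H950.Q

open Finset Vale.Agent.P145.FB Vale.Agent.P153 Vale.Agent.P153.Topo Vale.Agent.P167
  Vale.Agent.P167.H632 Vale.Agent.P167.H871 Vale.Agent.P167.H704 Vale.Agent.P167.FK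
  Vale.Agent.P167.FKA Vale.Agent.P167.H704.Q
open Vale.Agent.P167.H318 (St Pt0 Cl0 FlatAt cnt opq st hdv_opq ls_opq rs_opq even_corner odd_corner
  col_ne hs_notF cnt_pos CoConn dvg dvg_path dvg_col dvg_add sg_sq flat_of hit ex Lo TB)
open Relation

variable {S : St} {u w l H x h0 : ℤ} {U : Pt → ℤ} {ξ : Cfg}

theorem enter (hB : TB S u w (4 * l) H x) (hl : 1 ≤ l) (hH : 8 * l ≤ H)
    (hx1 : u - w ≤ x - 8 * l) (hx2 : x + 8 * l ≤ u + w) (hh0 : 1 ≤ h0) (hh : h0 ≤ 4 * l - 1)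
    (hξ : ∀ v, v ∉ S.F → ξ v = S.z v) {a a' : Pt} (ha : a.2 = h0) (ha' : a'.2 = h0)
    (ap : Even (a.1 + a.2)) (ap' : Odd (a'.1 + a'.2)) (haa : a'.1 < a.1)
    (hb1 : x - 4 * l ≤ a'.1) (hb2 : a.1 ≤ x + 4 * l)
    (hct : ∃ i ≤ S.m, PConn (op ξ) (Rect (x - 4 * l) (x + 4 * l) h0 (8 * l)) a
      (ls (st S.e0 S.z i)))
    (hct' : ∃ i ≤ S.m, PConn (op ξ)ᶜ (Rect (x - 4 * l) (x + 4 * l) h0 (8 * l)) a'
      (rs (st S.e0 S.z i))) :
    ∃ y, a'.1 ≤ y ∧ y < a.1 ∧
      st S.e0 ξ (hit S.D S.e0 (Lo u w h0) ξ) = Sum.inr (y, h0 - 1) := by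
  have hmono : ∀ v, v ∈ Lo u w h0 → v ∈ Lo u w (4 * l) := fun v hv =>
    ⟨hv.1, hv.2.1, hv.2.2.1, by have := hv.2.2.2; omega⟩
  have htipLo : ((x, 4 * l - 1) : ℤ × ℤ) ∈ Lo u w (4 * l) :=
    ⟨by dsimp only; omega, by dsimp only; omega, by dsimp only; omega, by dsimp only; omega⟩
  obtain ⟨i, hi, hct⟩ := hct
  obtain ⟨i', hi', hct'⟩ := hct'
  -- the domain without the low zone
  have hflat : H318.Flat S.D u w h0 :=
    ⟨fun v hv => hB.flat.mem v (hmono v hv), hB.flat.not⟩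
  obtain ⟨D', hD', hco⟩ := H318.coCut S.D u w h0 hB.co hflat
  set n := hit S.D S.e0 (Lo u w h0) ξ with hn
  have h0' : tlv S.e0 ∉ (↑D' : Set (ℤ × ℤ)) := fun h => hB.st ((hD' _).1 (Finset.mem_coe.1 h)).1
  have hnD : hdv (st S.e0 ξ n) ∉ (↑D' : Set (ℤ × ℤ)) := by
    intro h
    have h1 := (hD' _).1 (Finset.mem_coe.1 h)
    rcases H318.Bs.hit_spec hB.st (Lo u w h0) ξ with h2 | h2
    · exact h1.2 h2
    · exact h2 h1.1
  obtain ⟨V, hV⟩ := H318.walk_pot (H318.ex_of_coConn hco) h0' hnD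
  have hmn : S.m ≤ n := by
    by_contra hcon
    have h1 := H318.Bs.hit_min (not_le.1 hcon)
    have h2 := H318.Bs.hit_spec hB.st (Lo u w h0) ξ
    rw [← hn, st_z hξ n (by omega)] at h2
    rcases h2 with h2 | h2
    · exact h1.1 (Finset.mem_coe.2 (hB.fresh _ (hmono _ h2)))
    · exact h2 h1.2
  have hdD : ∀ i ≤ S.m, hdv (st S.e0 S.z i) ∈ D' := by
    intro i hi
    rw [hD']
    rcases lt_or_eq_of_le hi with h1 | h1
    · have h2 := H318.Bs.hit_min h1
      refine ⟨h2.2, fun h3 => h2.1 (Finset.mem_coe.2 (hB.fresh _ (hmono _ h3)))⟩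
    · subst h1
      have h2 : hdv (st S.e0 S.z S.m) = (x, 4 * l - 1) := hB.tip_hdv
      rw [h2]
      refine ⟨hB.flat.mem _ htipLo, fun h3 => ?_⟩
      have := h3.2.2.2
      dsimp only at this
      omega
  have hcD : ∀ j < n, hdv (st S.e0 ξ j) ∈ D' := fun j hj =>
    (hD' _).2 ⟨(H318.Bs.hit_min hj).2, (H318.Bs.hit_min hj).1⟩
  have hVp : ∀ i ≤ S.m, V (ls (st S.e0 S.z i)) = V (rs (st S.e0 S.z i)) + 1 := by
    intro i hi
    rw [hV _ (Or.inl (Finset.mem_coe.2 (hdD i hi)))]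
    congr 1
    rw [← st_z hξ i hi]
    exact H318.cnt_eq_one (D := D') (fun h => h0' (Finset.mem_coe.2 h)) hcD (by omega)
  have hVc := Pt0.chain hVp
  -- squares of the region
  have hRD : ∀ s ∈ Rect (x - 4 * l) (x + 4 * l) h0 (8 * l),
      ∀ s' ∈ Rect (x - 4 * l) (x + 4 * l) h0 (8 * l), ∀ v, PStep {v} s s' →
      v ∈ (↑D' : Set (ℤ × ℤ)) := by
    rintro s hs s' hs' v ⟨k1, k2, k3⟩
    rw [Set.mem_singleton_iff] at k3
    subst k3
    rw [mem_rect] at hs hs'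
    refine Finset.mem_coe.2 ((hD' _).2 ⟨hB.flat'.mem _ ⟨?_, ?_, ?_, ?_⟩, fun h => ?_⟩)
    · dsimp only; omega
    · dsimp only; omega
    · dsimp only; omega
    · dsimp only; omega
    · have := h.2.2.2
      dsimp only at this
      omega
  -- values
  have v1 : V a = V (ls S.tip) := by
    rw [H318.pot_open_path hV h0' hnD hRD ap hct]
    exact (hVc i hi).1
  have v2 : V a' = V (rs S.tip) := by
    rw [H318.pot_dual_path hV h0' hnD hRD ap' hct']
    exact (hVc i' hi').2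
  have v3 : V (ls S.tip) = V (rs S.tip) + 1 := hVp S.m le_rfl
  -- a jump in the row
  have hj : ∃ y, a'.1 ≤ y ∧ y < a.1 ∧ V (y, h0) ≠ V (y + 1, h0) := by
    by_contra hcon
    push Not at hcon
    have h1 := row_c (V := V) (y := h0) haa.le hcon
    have e1 : a = (a.1, h0) := Prod.ext rfl ha
    have e2 : a' = (a'.1, h0) := Prod.ext rfl ha'
    rw [← e1, ← e2, v1, v2] at h1
    omega
  obtain ⟨y, y1, y2, y3⟩ := hj
  have e1 : h0 - 1 + 1 = h0 := by ring
  have hyD : ((y, h0) : Pt) ∈ D' := by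
    rw [hD']
    refine ⟨hB.flat.mem _ ⟨by dsimp only; omega, by dsimp only; omega, by dsimp only; omega,
      by dsimp only; omega⟩, fun h => ?_⟩
    have := h.2.2.2
    dsimp only at this
    omega
  have hor : hdv (Sum.inr (y, h0 - 1)) ∈ (↑D' : Set (ℤ × ℤ)) ∨
      tlv (Sum.inr (y, h0 - 1)) ∈ (↑D' : Set (ℤ × ℤ)) := by
    rcases sq_inr (y, h0 - 1) with h | h
    · right; rw [h.2.1]; dsimp only; rw [e1]; exact Finset.mem_coe.2 hyD
    · left; rw [h.1]; dsimp only; rw [e1]; exact Finset.mem_coe.2 hyD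
  have h1 := hV _ hor
  have h2 : cnt S.e0 ξ n (Sum.inr (y, h0 - 1)) ≠ 0 := by
    intro h2
    rw [h2, add_zero] at h1
    apply y3
    rcases sq_inr (y, h0 - 1) with h | h <;> rw [h.2.2.2.1, h.2.2.2.2] at h1 <;>
      dsimp only at h1 <;> rw [e1] at h1
    · exact h1.symm
    · exact h1
  obtain ⟨k, hk, hke⟩ := cnt_pos h2
  have hyLo : ((y, h0 - 1) : Pt) ∈ Lo u w h0 :=
    ⟨by dsimp only; omega, by dsimp only; omega, by dsimp only; omega, by dsimp only; omega⟩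
  refine ⟨y, y1, y2, ?_⟩
  rcases lt_or_eq_of_le hk with h3 | h3
  · exfalso
    have h4 := H318.Bs.hit_min h3
    rcases sq_inr (y, h0 - 1) with h | h
    · rw [hke, h.1] at h4
      exact h4.1 hyLo
    · rcases Nat.eq_zero_or_pos k with h5 | h5
      · subst h5
        rw [H318.Bs.st_zero] at hke
        apply hB.st
        rw [hke, h.2.1]
        exact hB.flat.mem _ (hmono _ hyLo)
      · obtain ⟨k', rfl⟩ : ∃ k', k = k' + 1 := ⟨k - 1, by omega⟩
        have h6 := H318.Bs.hit_min (show k' < n by omega)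
        rw [← H318.Bs.tlv_st, hke, h.2.1] at h6
        exact h6.1 hyLo
  · rw [← h3]
    exact hke

/-- **From the filled arcs**: entrance and confinement. -/
theorem enter_fa (hB : TB S u w (4 * l) H x) (hl : 1 ≤ l) (hH : 8 * l ≤ H)
    (hx1 : u - w ≤ x - 8 * l) (hx2 : x + 8 * l ≤ u + w) (hh0 : 1 ≤ h0) (hh : h0 ≤ 4 * l - 1)
    (hU : Pt0 S x (4 * l) U) (hξ : ∀ v, v ∉ S.F → ξ v = S.z v) {T : Bool → Finset Pt}
    (hT : ∀ e, TOk S x (4 * l) (T e)) {a b a' b' : Pt} (ha : a.2 = h0) (ha' : a'.2 = h0)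
    (ap : (a.1 + a.2) % 2 = pr true) (ap' : (a'.1 + a'.2) % 2 = pr false)
    (ha1 : x + 1 ≤ a.1) (ha2 : a.1 ≤ x + 4 * l) (ha3 : a'.1 ≤ x) (ha4 : x - 4 * l + 1 ≤ a'.1)
    (hb1 : x - 4 * l + 1 ≤ b.1) (hb2 : b.1 ≤ x - 2) (hb3 : h0 ≤ b.2) (hb4 : b.2 ≤ 4 * l)
    (hb1' : x + 2 ≤ b'.1) (hb2' : b'.1 ≤ x + 4 * l - 1) (hb3' : h0 ≤ b'.2) (hb4' : b'.2 ≤ 4 * l)
    (hab : PConn (cs true (fil true (T true) (CU true S (T true) U) ξ))
      (Rect (x - 4 * l) (x + 4 * l) h0 (8 * l)) a b)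
    (hab' : PConn (cs false (fil false (T false) (CU false S (T false) U) ξ))
      (Rect (x - 4 * l) (x + 4 * l) h0 (8 * l)) a' b') :
    (∃ y, a'.1 ≤ y ∧ y < a.1 ∧
      st S.e0 ξ (hit S.D S.e0 (Lo u w h0) ξ) = Sum.inr (y, h0 - 1)) ∧
    ∀ j, S.m ≤ j → j < hit S.D S.e0 (Lo u w h0) ξ → hdv (st S.e0 ξ j) ∈ R0 x l h0 := by
  have hhp := tb_hp hB hl hx1 hx2 hU
  have hU1 : U (ls S.tip) = U (rs S.tip) + 1 := hhp S.m le_rfl
  constructor
  · refine enter hB hl hH hx1 hx2 hh0 hh hξ ha ha' (Int.even_iff.2 ap) (Int.odd_iff.2 ap')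
      (by omega) (by omega) ha2 ?_ ?_
    · obtain ⟨i, hi, h⟩ := contact (e := true) hU hB.toOk (by omega) hB.tip_hdv hhp (hT true) ap hab
        (H318.east hB hl hx1 hx2 hU ha1 ha2 (by omega) (by omega))
        (by
          show U b ≠ U (ls S.tip)
          rw [H318.west hB hl hx1 hx2 hU hb1 (by omega) (by omega) hb4, hU1]
          omega)
      exact ⟨i, hi, h.mono Set.inter_subset_left subset_rfl⟩
    · obtain ⟨i, hi, h⟩ := contact (e := false) hU hB.toOk (by omega) hB.tip_hdv hhp (hT false)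
        ap' hab' (west' hB hl hx1 hx2 hU ha4 ha3 (by omega) (by omega))
        (by
          show U b' ≠ U (rs S.tip)
          rw [H318.east hB hl hx1 hx2 hU (by omega) (by omega) (by omega) hb4', hU1]
          omega)
      rw [cs_false] at h
      exact ⟨i, hi, h.mono Set.inter_subset_left subset_rfl⟩
  · refine confine hB hl hH hx1 hx2 (by omega) hh hU hξ hT fun e => ?_
    cases e
    · exact ⟨a', b', ha', ap', by simp only [Bool.false_eq_true, if_false]; omega,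
        by simp only [Bool.false_eq_true, if_false]; omega, hb3', hb4', hab'⟩
    · exact ⟨a, b, ha, ap, by simp only [if_true]; omega,
        by simp only [if_true]; omega, hb3, hb4, hab⟩

end Vale.Agent.P167.H950.Q
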